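import Mathlib

/-!
# Elements of a group algebra with an extreme support point are regular
(used for P194 and P201)
-/

namespace Vale.Agent.Lib.P194

variable {K : Type} [Field K] {G : Type} [Group G]

/-- `g` is a left-extreme point of the finite set `A`: the identity is not a product of
one or more elements `g⁻¹ h`, `h ∈ A`, `h ≠ g`. -/
def LeftExtreme (A : Finset G) (g : G) : Prop :=
  g ∈ A ∧ (1 : G) ∉ Subsemigroup.closure {x : G | ∃ h ∈ A, h ≠ g ∧ x = g⁻¹ * h}

/-- `g` is a right-extreme point of the finite set `A`: the identity is not a product of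
one or more elements `h g⁻¹`, `h ∈ A`, `h ≠ g`. -/
def RightExtreme (A : Finset G) (g : G) : Prop :=
  g ∈ A ∧ (1 : G) ∉ Subsemigroup.closure {x : G | ∃ h ∈ A, h ≠ g ∧ x = h * g⁻¹}

theorem left_regular (a e : MonoidAlgebra K G) (g : G) (hg : LeftExtreme a.coeff.support g)
    (hae : a * e = 0) : e = 0 := by
  classical
  obtain ⟨hg, hext⟩ := hg
  by_contra he
  obtain ⟨P, hP⟩ : ∃ P : Subsemigroup G,
      P = Subsemigroup.closure {x : G | ∃ h ∈ a.coeff.support, h ≠ g ∧ x = g⁻¹ * h} := ⟨_, rfl⟩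
  rw [← hP] at hext
  let r : {s // s ∈ e.coeff.support} → {s // s ∈ e.coeff.support} → Prop := fun s' s => s.1 * s'.1⁻¹ ∈ P
  have : IsTrans _ r := ⟨fun x y z hxy hyz => by
    have h := P.mul_mem hyz hxy
    have h2 : z.1 * y.1⁻¹ * (y.1 * x.1⁻¹) = z.1 * x.1⁻¹ := by group
    rw [h2] at h
    exact h⟩
  have : Std.Irrefl r := ⟨fun x hx => hext (by
    have h2 : x.1 * x.1⁻¹ = 1 := by group
    rw [← h2]
    exact hx)⟩
  have wf : WellFounded r := Finite.wellFounded_of_trans_of_irrefl r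
  have hne : (Set.univ : Set {s // s ∈ e.coeff.support}).Nonempty := by
    have he' : e.coeff ≠ 0 := fun h =>
      he (MonoidAlgebra.coeff_injective (h.trans MonoidAlgebra.coeff_zero.symm))
    obtain ⟨s, hs⟩ := Finsupp.support_nonempty_iff.mpr he'
    exact ⟨⟨s, hs⟩, trivial⟩
  obtain ⟨s, -, hmin⟩ := wf.has_min Set.univ hne
  have h1 : (a * e).coeff (g * s.1) = a.coeff g * e.coeff s.1 := by
    rw [MonoidAlgebra.coeff_mul_apply_left, Finsupp.sum, Finset.sum_eq_single g]
    · simp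
    · intro h hh hne'
      by_contra hcon
      have h2 : e.coeff (h⁻¹ * (g * s.1)) ≠ 0 := right_ne_zero_of_mul hcon
      have h3 : h⁻¹ * (g * s.1) ∈ e.coeff.support := Finsupp.mem_support_iff.mpr h2
      refine hmin ⟨_, h3⟩ trivial ?_
      show s.1 * (h⁻¹ * (g * s.1))⁻¹ ∈ P
      have h4 : s.1 * (h⁻¹ * (g * s.1))⁻¹ = g⁻¹ * h := by group
      rw [h4, hP]
      exact Subsemigroup.subset_closure ⟨h, hh, hne', rfl⟩
    · intro h
      exact absurd hg h
  rw [hae] at h1
  have h5 : a.coeff g * e.coeff s.1 ≠ 0 :=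
    mul_ne_zero (Finsupp.mem_support_iff.mp hg) (Finsupp.mem_support_iff.mp s.2)
  exact h5 h1.symm

theorem right_regular (b f : MonoidAlgebra K G) (g : G) (hg : RightExtreme b.coeff.support g)
    (hfb : f * b = 0) : f = 0 := by
  classical
  obtain ⟨hg, hext⟩ := hg
  by_contra hf
  obtain ⟨P, hP⟩ : ∃ P : Subsemigroup G,
      P = Subsemigroup.closure {x : G | ∃ h ∈ b.coeff.support, h ≠ g ∧ x = h * g⁻¹} := ⟨_, rfl⟩
  rw [← hP] at hext
  let r : {s // s ∈ f.coeff.support} → {s // s ∈ f.coeff.support} → Prop := fun s' s => s'.1⁻¹ * s.1 ∈ P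
  have : IsTrans _ r := ⟨fun x y z hxy hyz => by
    have h := P.mul_mem hxy hyz
    have h2 : x.1⁻¹ * y.1 * (y.1⁻¹ * z.1) = x.1⁻¹ * z.1 := by group
    rw [h2] at h
    exact h⟩
  have : Std.Irrefl r := ⟨fun x hx => hext (by
    have h2 : x.1⁻¹ * x.1 = 1 := by group
    rw [← h2]
    exact hx)⟩
  have wf : WellFounded r := Finite.wellFounded_of_trans_of_irrefl r
  have hne : (Set.univ : Set {s // s ∈ f.coeff.support}).Nonempty := by
    have hf' : f.coeff ≠ 0 := fun h =>
      hf (MonoidAlgebra.coeff_injective (h.trans MonoidAlgebra.coeff_zero.symm))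
    obtain ⟨s, hs⟩ := Finsupp.support_nonempty_iff.mpr hf'
    exact ⟨⟨s, hs⟩, trivial⟩
  obtain ⟨s, -, hmin⟩ := wf.has_min Set.univ hne
  have h1 : (f * b).coeff (s.1 * g) = f.coeff s.1 * b.coeff g := by
    rw [MonoidAlgebra.coeff_mul_apply_right, Finsupp.sum, Finset.sum_eq_single g]
    · simp
    · intro h hh hne'
      by_contra hcon
      have h2 : f.coeff (s.1 * g * h⁻¹) ≠ 0 := left_ne_zero_of_mul hcon
      have h3 : s.1 * g * h⁻¹ ∈ f.coeff.support := Finsupp.mem_support_iff.mpr h2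
      refine hmin ⟨_, h3⟩ trivial ?_
      show (s.1 * g * h⁻¹)⁻¹ * s.1 ∈ P
      have h4 : (s.1 * g * h⁻¹)⁻¹ * s.1 = h * g⁻¹ := by group
      rw [h4, hP]
      exact Subsemigroup.subset_closure ⟨h, hh, hne', rfl⟩
    · intro h
      exact absurd hg h
  rw [hfb] at h1
  have h5 : f.coeff s.1 * b.coeff g ≠ 0 :=
    mul_ne_zero (Finsupp.mem_support_iff.mp s.2) (Finsupp.mem_support_iff.mp hg)
  exact h5 h1.symm

/-- a strict minimiser of an additive character is left- and right-extreme -/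
theorem extreme_of_character (A : Finset G) (g : G) (hg : g ∈ A) (φ : G → ℝ)
    (hφ : ∀ x y, φ (x * y) = φ x + φ y) (hmin : ∀ h ∈ A, h ≠ g → φ g < φ h) :
    LeftExtreme A g ∧ RightExtreme A g := by
  have h1 : φ 1 = 0 := by
    have := hφ 1 1
    rw [mul_one] at this
    linarith
  have hinv : ∀ x, φ x⁻¹ = - φ x := by
    intro x
    have := hφ x x⁻¹
    rw [mul_inv_cancel, h1] at this
    linarith
  let Q : Subsemigroup G :=
    { carrier := {x | 0 < φ x}
      mul_mem' := by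
        intro x y hx hy
        show 0 < φ (x * y)
        rw [hφ]
        exact add_pos hx hy }
  have hQ1 : (1 : G) ∉ Q := by
    intro h
    have h' : 0 < φ 1 := h
    rw [h1] at h'
    exact lt_irrefl _ h'
  refine ⟨⟨hg, fun h => hQ1 ?_⟩, ⟨hg, fun h => hQ1 ?_⟩⟩
  · refine (Subsemigroup.closure_le.mpr ?_) h
    rintro x ⟨k, hk, hne, rfl⟩
    show 0 < φ (g⁻¹ * k)
    rw [hφ, hinv]
    have := hmin k hk hne
    linarith
  · refine (Subsemigroup.closure_le.mpr ?_) h
    rintro x ⟨k, hk, hne, rfl⟩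
    show 0 < φ (k * g⁻¹)
    rw [hφ, hinv]
    have := hmin k hk hne
    linarith

end Vale.Agent.Lib.P194
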